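import Vale.Agent.P148.R2.H900.PP2

/-!
# P148, row PP: existence of the coloured Poisson process. Part 3: the random set
-/

open MeasureTheory Set Metric Topology Filter ProbabilityTheory
open scoped ENNReal NNReal

namespace Vale.Agent.P148.R2.H900

open _root_.P148

/-- The good outcomes: every point of the sequence of a cell is over the cell, and the positions
are distinct. -/
def G : Set Om := {ω | (∀ k j, ((ω k).2 j).1 ∈ cellQ k) ∧
  ∀ k, ∀ i j, i ≠ j → ((ω k).2 i).1 ≠ ((ω k).2 j).1}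

theorem measurable_pt (k : ℤ × ℤ) (j : ℕ) : Measurable fun ω : Om => (ω k).2 j :=
  (measurable_pi_apply j).comp (measurable_snd.comp (measurable_pi_apply k))

theorem measurableSet_G : MeasurableSet G := by
  have h : G = (⋂ k, ⋂ j, {ω : Om | ((ω k).2 j).1 ∈ cellQ k}) ∩
      ⋂ k, ⋂ i, ⋂ j, {ω : Om | i ≠ j → ((ω k).2 i).1 ≠ ((ω k).2 j).1} := by
    ext ω
    simp [G]
  rw [h]
  refine (MeasurableSet.iInter fun k => MeasurableSet.iInter fun j => ?_).inter
    (MeasurableSet.iInter fun k => MeasurableSet.iInter fun i => MeasurableSet.iInter fun j => ?_)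
  · exact (measurable_fst.comp (measurable_pt k j)) (measurableSet_cellQ k)
  · by_cases hij : i = j
    · simp [hij]
    · simp only [ne_eq, hij, not_false_eq_true, forall_const]
      exact (measurableSet_eq_fun (measurable_fst.comp (measurable_pt k i))
        (measurable_fst.comp (measurable_pt k j))).compl

theorem mp_pt (lam : ℝ≥0) (k : ℤ × ℤ) (j : ℕ) :
    MeasurePreserving (fun ω : Om => (ω k).2 j) (PP lam) (nu k) := by
  have h1 := measurePreserving_eval_infinitePi (fun k : ℤ × ℤ => cm lam (nu k)) k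
  have h2 : MeasurePreserving Prod.snd (cm lam (nu k)) (Measure.infinitePi fun _ : ℕ => nu k) :=
    measurePreserving_snd
  have h3 := measurePreserving_eval_infinitePi (fun _ : ℕ => nu k) j
  exact h3.comp (h2.comp h1)

theorem mp_pair (lam : ℝ≥0) (k : ℤ × ℤ) {i j : ℕ} (hij : i ≠ j) :
    MeasurePreserving (fun ω : Om => ((ω k).2 i, (ω k).2 j)) (PP lam) ((nu k).prod (nu k)) := by
  have h1 := measurePreserving_eval_infinitePi (fun k : ℤ × ℤ => cm lam (nu k)) k
  have h2 : MeasurePreserving Prod.snd (cm lam (nu k)) (Measure.infinitePi fun _ : ℕ => nu k) :=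
    measurePreserving_snd
  have h3 : MeasurePreserving (fun x : ℕ → Pt => (x i, x j))
      (Measure.infinitePi fun _ : ℕ => nu k) ((nu k).prod (nu k)) :=
    ⟨by fun_prop, Measure.infinitePi_map_eval_prod (P := fun _ : ℕ => nu k) hij⟩
  exact h3.comp (h2.comp h1)

theorem nu_pos (k : ℤ × ℤ) (z : ℂ) : nu k {x | x.1 = z} = 0 := by
  have h : {x : Pt | x.1 = z} = {z} ×ˢ univ := by
    ext x
    simp
  rw [h, nu, Measure.prod_prod]
  simp

theorem ae_G (lam : ℝ≥0) : ∀ᵐ ω ∂(PP lam), ω ∈ G := by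
  have h1 : ∀ᵐ ω ∂(PP lam), ∀ k j, ((ω k).2 j).1 ∈ cellQ k := by
    rw [ae_all_iff]
    intro k
    rw [ae_all_iff]
    intro j
    have h : ∀ᵐ x ∂(nu k), x.1 ∈ cellQ k := by
      rw [ae_iff]
      have : {x : Pt | ¬ x.1 ∈ cellQ k} = (cellQ k)ᶜ ×ˢ univ := by
        ext x
        simp
      rw [this, nu, Measure.prod_prod, Measure.restrict_apply (measurableSet_cellQ k).compl]
      simp
    exact (mp_pt lam k j).quasiMeasurePreserving.ae h
  have h2 : ∀ᵐ ω ∂(PP lam), ∀ k, ∀ i j, i ≠ j → ((ω k).2 i).1 ≠ ((ω k).2 j).1 := by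
    rw [ae_all_iff]
    intro k
    rw [ae_all_iff]
    intro i
    rw [ae_all_iff]
    intro j
    by_cases hij : i = j
    · simp [hij]
    have h : ∀ᵐ x ∂((nu k).prod (nu k)), x.1.1 ≠ x.2.1 := by
      rw [ae_iff]
      have hm : MeasurableSet {x : Pt × Pt | ¬ x.1.1 ≠ x.2.1} := by
        simp only [ne_eq, not_not]
        exact measurableSet_eq_fun (by fun_prop) (by fun_prop)
      rw [Measure.measure_prod_null hm]
      refine Eventually.of_forall fun x => ?_
      have : Prod.mk x ⁻¹' {x : Pt × Pt | ¬ x.1.1 ≠ x.2.1} = {y : Pt | y.1 = x.1} := by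
        ext y
        simp [eq_comm]
      change (nu k) (Prod.mk x ⁻¹' {x : Pt × Pt | ¬ x.1.1 ≠ x.2.1}) = 0
      rw [this]
      exact nu_pos k x.1
    filter_upwards [(mp_pair lam k hij).quasiMeasurePreserving.ae h] with ω hω _
    exact hω
  filter_upwards [h1, h2] with ω a b
  exact ⟨a, b⟩

/-- The points of the cells. -/
def S0 (ω : Om) : Set Pt := {x | ∃ k, ∃ j < (ω k).1, (ω k).2 j = x}

open Classical in
/-- **The coloured Poisson process.** -/
noncomputable def SS (ω : Om) : Set Pt := if ω ∈ G then S0 ω else ∅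

/-- The cells which meet the ball of radius `n`. -/
noncomputable def box (n : ℕ) : Finset (ℤ × ℤ) :=
  Finset.Icc (-(n : ℤ) - 1) n ×ˢ Finset.Icc (-(n : ℤ) - 1) n

theorem mem_box {n : ℕ} {k : ℤ × ℤ} {z : ℂ} (hz : z ∈ cellQ k) (hr : ‖z‖ < n) : k ∈ box n := by
  obtain ⟨h1, h2⟩ := hz
  have h3 := (Complex.abs_re_le_norm z).trans_lt hr
  have h4 := (Complex.abs_im_le_norm z).trans_lt hr
  rw [abs_lt] at h3 h4
  rw [Int.floor_eq_iff] at h1 h2
  simp only [box, Finset.mem_product, Finset.mem_Icc]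
  refine ⟨⟨?_, ?_⟩, ?_, ?_⟩
  · have : (-(n : ℤ) - 1 : ℝ) < k.1 := by push_cast; linarith
    exact_mod_cast this.le
  · have : (k.1 : ℝ) < n := by linarith
    exact_mod_cast this.le
  · have : (-(n : ℤ) - 1 : ℝ) < k.2 := by push_cast; linarith
    exact_mod_cast this.le
  · have : (k.2 : ℝ) < n := by linarith
    exact_mod_cast this.le

theorem over_box {A : Set Pt} {n : ℕ} (hA : A ⊆ ball (0 : ℂ) n ×ˢ univ) : Over A (box n) := by
  intro x hx
  have h1 := (hA hx).1
  rw [mem_ball_zero_iff] at h1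
  refine mem_iUnion₂.2 ⟨(⌊x.1.re⌋, ⌊x.1.im⌋), ?_, ?_⟩
  · exact mem_box (z := x.1) ⟨rfl, rfl⟩ h1
  · exact ⟨⟨rfl, rfl⟩, mem_univ _⟩

/-- The indices of the points in `A`. -/
noncomputable def idx (A : Set Pt) (K : Finset (ℤ × ℤ)) (ω : Om) :
    Finset (Σ _ : ℤ × ℤ, ℕ) := by
  classical
  exact K.sigma fun k => (Finset.range (ω k).1).filter fun j => (ω k).2 j ∈ A

theorem card_idx (A : Set Pt) (K : Finset (ℤ × ℤ)) (ω : Om) : (idx A K ω).card = M A K ω := by
  classical
  unfold idx M cnt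
  rw [Finset.card_sigma]
  refine Finset.sum_congr rfl fun k _ => ?_
  rw [Finset.card_filter]
  refine Finset.sum_congr rfl fun j _ => ?_
  by_cases h : (ω k).2 j ∈ A <;> simp [h]

theorem inter_eq {A : Set Pt} {n : ℕ} (hA : A ⊆ ball (0 : ℂ) n ×ˢ univ) {ω : Om} (hω : ω ∈ G) :
    SS ω ∩ A = (fun p : Σ _ : ℤ × ℤ, ℕ => (ω p.1).2 p.2) '' (idx A (box n) ω : Set _) := by
  classical
  rw [SS, if_pos hω]
  ext x
  constructor
  · rintro ⟨⟨k, j, hj, rfl⟩, hx⟩
    refine ⟨⟨k, j⟩, ?_, rfl⟩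
    have h1 := (hA hx).1
    rw [mem_ball_zero_iff] at h1
    simp only [idx, Finset.coe_sigma, Set.mem_sigma_iff, Finset.mem_coe,
      Finset.mem_filter, Finset.mem_range]
    exact ⟨mem_box (hω.1 k j) h1, hj, hx⟩
  · rintro ⟨⟨k, j⟩, hp, rfl⟩
    simp only [idx, Finset.coe_sigma, Set.mem_sigma_iff, Finset.mem_coe,
      Finset.mem_filter, Finset.mem_range] at hp
    exact ⟨⟨k, j, hp.2.1, rfl⟩, hp.2.2⟩

theorem inj_pt {ω : Om} (hω : ω ∈ G) :
    Function.Injective fun p : Σ _ : ℤ × ℤ, ℕ => ((ω p.1).2 p.2).1 := by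
  rintro ⟨k, i⟩ ⟨l, j⟩ h
  simp only at h
  have hkl : k = l := by
    by_contra hne
    exact disjoint_left.1 (cellQ_disjoint hne) (hω.1 k i) (h ▸ hω.1 l j)
  subst hkl
  have hij : i = j := by
    by_contra hne
    exact hω.2 k i j hne h
  rw [hij]

theorem inj_pt' {ω : Om} (hω : ω ∈ G) :
    Function.Injective fun p : Σ _ : ℤ × ℤ, ℕ => (ω p.1).2 p.2 :=
  fun _ _ h => inj_pt hω (congrArg Prod.fst h)

theorem ncard_eq {A : Set Pt} {n : ℕ} (hA : A ⊆ ball (0 : ℂ) n ×ˢ univ) {ω : Om} (hω : ω ∈ G) :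
    (SS ω ∩ A).ncard = M A (box n) ω := by
  rw [inter_eq hA hω, ncard_image_of_injective _ (inj_pt' hω), ncard_coe_finset, card_idx]

open Classical in
theorem ncard_fun {A : Set Pt} {n : ℕ} (hA : A ⊆ ball (0 : ℂ) n ×ˢ univ) :
    (fun ω => (SS ω ∩ A).ncard) = fun ω => if ω ∈ G then M A (box n) ω else 0 := by
  funext ω
  by_cases hω : ω ∈ G
  · simp only [hω, if_true]
    exact ncard_eq hA hω
  · simp [SS, hω]

theorem ncard_ae (lam : ℝ≥0) {A : Set Pt} {n : ℕ} (hA : A ⊆ ball (0 : ℂ) n ×ˢ univ) :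
    (fun ω => (SS ω ∩ A).ncard) =ᵐ[PP lam] M A (box n) := by
  filter_upwards [ae_G lam] with ω hω
  exact ncard_eq hA hω

theorem exists_nat_of_bdd {A : Set Pt} (hA : Bdd A) : ∃ n : ℕ, A ⊆ ball (0 : ℂ) n ×ˢ univ := by
  obtain ⟨r, hr⟩ := hA
  obtain ⟨n, hn⟩ := exists_nat_ge r
  exact ⟨n, hr.trans (prod_mono (ball_subset_ball hn) Subset.rfl)⟩

/-- **Existence of the coloured Poisson process.** -/
theorem isColouredPoisson (lam : ℝ≥0) : IsColouredPoisson (PP lam) SS lam where
  locFin ω r := by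
    obtain ⟨n, hn⟩ := exists_nat_of_bdd (A := ball (0 : ℂ) r ×ˢ univ) ⟨r, Subset.rfl⟩
    by_cases hω : ω ∈ G
    · rw [inter_eq hn hω]
      exact (Finset.finite_toSet _).image _
    · simp [SS, hω]
  oneColour ω z h := by
    by_cases hω : ω ∈ G
    · simp only [SS, hω, if_true] at h
      obtain ⟨⟨k, i, _, hi⟩, l, j, _, hj⟩ := h
      have h1 := inj_pt hω (a₁ := ⟨k, i⟩) (a₂ := ⟨l, j⟩) (by simp [hi, hj])
      have h2 : (ω k).2 i = (ω l).2 j := by
        cases h1
        rfl
      rw [hi, hj] at h2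
      simp at h2
    · simp [SS, hω] at h
  meas A hA hB := by
    classical
    obtain ⟨n, hn⟩ := exists_nat_of_bdd hB
    rw [ncard_fun hn]
    exact Measurable.ite measurableSet_G (measurable_M hA _) measurable_const
  law A hA hB := by
    obtain ⟨n, hn⟩ := exists_nat_of_bdd hB
    rw [Measure.map_congr (ncard_ae lam hn), law_M lam hA (over_box hn)]
  indep n A hA hB hd := by
    choose N hN using fun i => exists_nat_of_bdd (hB i)
    set m := Finset.univ.sup N with hm
    have h1 : ∀ i, A i ⊆ ball (0 : ℂ) m ×ˢ univ := fun i =>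
      (hN i).trans (prod_mono (ball_subset_ball (by
        exact_mod_cast Finset.le_sup (f := N) (Finset.mem_univ i))) Subset.rfl)
    exact (indep_M lam hA hd fun i => over_box (h1 i)).congr fun i => (ncard_ae lam (h1 i)).symm

theorem exists_colouredPoisson (lam : ℝ≥0) :
    ∃ (Ω : Type) (_ : MeasurableSpace Ω) (P : Measure Ω) (_ : IsProbabilityMeasure P)
      (S : Ω → Set Pt), IsColouredPoisson P S lam :=
  ⟨Om, inferInstance, PP lam, inferInstance, SS, isColouredPoisson lam⟩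

/-- The family version: for every `ε > 0` a process of intensity `ε⁻²`. -/
theorem exists_family : ∃ (Ω : ℝ → Type) (_ : ∀ ε, MeasurableSpace (Ω ε))
    (P : ∀ ε, Measure (Ω ε)) (_ : ∀ ε, IsProbabilityMeasure (P ε)) (S : ∀ ε, Ω ε → Set Pt),
    ∀ ε > 0, IsColouredPoisson (P ε) (S ε) (Real.toNNReal (ε ^ (-2 : ℤ))) :=
  ⟨fun _ => Om, fun _ => inferInstance, fun ε => PP (Real.toNNReal (ε ^ (-2 : ℤ))),
    fun _ => inferInstance, fun _ => SS, fun _ _ => isColouredPoisson _⟩

/-- Pull-back along a measure preserving map. -/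
theorem comp_mp {Ω Ω' : Type*} [MeasurableSpace Ω] [MeasurableSpace Ω'] {P : Measure Ω}
    {P' : Measure Ω'} {S : Ω → Set Pt} {lam : ℝ≥0} (h : IsColouredPoisson P S lam)
    {f : Ω' → Ω} (hf : MeasurePreserving f P' P) : IsColouredPoisson P' (fun ω => S (f ω)) lam where
  locFin ω r := h.locFin (f ω) r
  oneColour ω z := h.oneColour (f ω) z
  meas A hA hB := (h.meas A hA hB).comp hf.measurable
  law A hA hB := by
    have h1 : (fun ω => (S (f ω) ∩ A).ncard) = (fun ω => (S ω ∩ A).ncard) ∘ f := rfl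
    rw [h1, ← Measure.map_map (h.meas A hA hB) hf.measurable, hf.map_eq, h.law A hA hB]
  indep n A hA hB hd := by
    have h1 := h.indep n A hA hB hd
    rw [← hf.map_eq] at h1
    rw [iIndepFun_iff_measure_inter_preimage_eq_mul] at h1 ⊢
    intro s sets hs
    have h2 := h1 s hs
    rw [Measure.map_apply hf.measurable] at h2
    · rw [preimage_iInter₂] at h2
      refine h2.trans (Finset.prod_congr rfl fun i hi => ?_)
      rw [Measure.map_apply hf.measurable]
      · rfl
      · exact (h.meas (A i) (hA i) (hB i)) (hs i hi)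
    · exact Finset.measurableSet_biInter _ fun i hi => (h.meas (A i) (hA i) (hB i)) (hs i hi)

universe u in
/-- Existence in every universe. -/
theorem exists_colouredPoisson' (lam : ℝ≥0) :
    ∃ (Ω : Type u) (_ : MeasurableSpace Ω) (P : Measure Ω) (_ : IsProbabilityMeasure P)
      (S : Ω → Set Pt), IsColouredPoisson P S lam := by
  have h1 : MeasurePreserving (ULift.down : ULift.{u} Om → Om) ((PP lam).map ULift.up) (PP lam) := by
    refine ⟨measurable_down, ?_⟩
    rw [Measure.map_map measurable_down measurable_up]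
    exact Measure.map_id
  exact ⟨ULift Om, inferInstance, (PP lam).map ULift.up,
    Measure.isProbabilityMeasure_map measurable_up.aemeasurable, _,
    comp_mp (isColouredPoisson lam) h1⟩

end Vale.Agent.P148.R2.H900
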