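import Vale.Agent.P148.Defs

/-!
# P148, row PP: existence of the coloured Poisson process. Part 1: one cell and many cells
-/

open MeasureTheory Set Metric Topology Filter ProbabilityTheory
open scoped ENNReal NNReal

namespace Vale.Agent.P148.R2.H900

open _root_.P148

instance fairProb : IsProbabilityMeasure fair := by
  refine ⟨?_⟩
  rw [fair, Measure.smul_apply, Measure.count_univ, smul_eq_mul]
  simp only [ENat.card_eq_coe_fintype_card, Fintype.card_bool]
  exact ENNReal.inv_mul_cancel (by norm_num) (by norm_num)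

theorem mp_integral {α β : Type*} [MeasurableSpace α] [MeasurableSpace β] {μ : Measure α}
    {ν : Measure β} {f : α → β} (h : MeasurePreserving f μ ν) {g : β → ℂ} (hg : Measurable g) :
    ∫ a, g (f a) ∂μ = ∫ b, g b ∂ν := by
  rw [← h.map_eq, integral_map h.measurable.aemeasurable hg.aestronglyMeasurable]

/-- The half-open unit cell with lower left corner `k`. -/
def cellQ (k : ℤ × ℤ) : Set ℂ := {z | ⌊z.re⌋ = k.1 ∧ ⌊z.im⌋ = k.2}

theorem cellQ_eq (k : ℤ × ℤ) : cellQ k = Complex.measurableEquivRealProd ⁻¹'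
    (Ico (k.1 : ℝ) (k.1 + 1) ×ˢ Ico (k.2 : ℝ) (k.2 + 1)) := by
  ext z
  simp [cellQ, Int.floor_eq_iff, Complex.measurableEquivRealProd]

theorem measurableSet_cellQ (k : ℤ × ℤ) : MeasurableSet (cellQ k) := by
  rw [cellQ_eq]
  exact Complex.measurableEquivRealProd.measurable (measurableSet_Ico.prod measurableSet_Ico)

theorem volume_cellQ (k : ℤ × ℤ) : volume (cellQ k) = 1 := by
  rw [cellQ_eq, Complex.volume_preserving_equiv_real_prod.measure_preimage
    (measurableSet_Ico.prod measurableSet_Ico).nullMeasurableSet, Measure.volume_eq_prod,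
    Measure.prod_prod]
  simp

/-- The uniform law on a cell, with a fair colour. -/
noncomputable def nu (k : ℤ × ℤ) : Measure Pt := (volume.restrict (cellQ k)).prod fair

instance cellProb (k : ℤ × ℤ) : IsProbabilityMeasure (volume.restrict (cellQ k)) :=
  ⟨by rw [Measure.restrict_apply_univ, volume_cellQ]⟩

instance nuProb (k : ℤ × ℤ) : IsProbabilityMeasure (nu k) := by unfold nu; infer_instance

section gen

variable {X : Type*} [MeasurableSpace X]

/-- The law of a Poisson number of independent points with law `ν`. -/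
noncomputable def cm (lam : ℝ≥0) (ν : Measure X) : Measure (ℕ × (ℕ → X)) :=
  (poissonMeasure lam).prod (Measure.infinitePi fun _ : ℕ => ν)

instance cmProb (lam : ℝ≥0) (ν : Measure X) [IsProbabilityMeasure ν] :
    IsProbabilityMeasure (cm lam ν) := by unfold cm; infer_instance

/-- The product of `g` over the points. -/
noncomputable def pg (g : X → ℂ) (c : ℕ × (ℕ → X)) : ℂ := ∏ j ∈ Finset.range c.1, g (c.2 j)

theorem measurable_pg {g : X → ℂ} (hg : Measurable g) : Measurable (pg g) := by
  refine measurable_from_prod_countable_right fun n => ?_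
  unfold pg
  simp only
  fun_prop

omit [MeasurableSpace X] in
theorem norm_pg_le {g : X → ℂ} (hg : ∀ x, ‖g x‖ ≤ 1) (c : ℕ × (ℕ → X)) : ‖pg g c‖ ≤ 1 := by
  unfold pg
  rw [norm_prod]
  exact Finset.prod_le_one (fun _ _ => norm_nonneg _) fun _ _ => hg _

theorem integral_pg_fix {ν : Measure X} [IsProbabilityMeasure ν] {g : X → ℂ} (hg : Measurable g)
    (n : ℕ) : ∫ x, ∏ j ∈ Finset.range n, g (x j) ∂(Measure.infinitePi fun _ : ℕ => ν) =
      (∫ x, g x ∂ν) ^ n := by
  have h1 : iIndepFun (fun (i : ℕ) (x : ℕ → X) => x i) (Measure.infinitePi fun _ : ℕ => ν) :=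
    iIndepFun_infinitePi (X := fun _ x => x) (fun _ => measurable_id)
  have h2 := h1.precomp (g := fun i : Fin n => (i : ℕ)) Fin.val_injective
  have h3 := h2.integral_fun_prod_comp (f := fun _ => g) (fun i => (measurable_pi_apply _).aemeasurable)
    (fun i => hg.aestronglyMeasurable)
  have h4 : ∀ x : ℕ → X, ∏ j ∈ Finset.range n, g (x j) = ∏ i : Fin n, g (x i) := fun x =>
    Finset.prod_range fun j => g (x j)
  simp_rw [h4]
  refine h3.trans ?_
  have h5 : ∀ i : Fin n, ∫ ω : ℕ → X, g (ω i) ∂(Measure.infinitePi fun _ : ℕ => ν) =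
      ∫ x, g x ∂ν := by
    intro i
    exact mp_integral (measurePreserving_eval_infinitePi (fun _ : ℕ => ν) (i : ℕ)) hg
  simp [h5]

theorem integral_pg (lam : ℝ≥0) {ν : Measure X} [IsProbabilityMeasure ν] {g : X → ℂ}
    (hg : Measurable g) (hb : ∀ x, ‖g x‖ ≤ 1) :
    ∫ c, pg g c ∂(cm lam ν) = Complex.exp (lam * (∫ x, g x ∂ν - 1)) := by
  unfold cm
  rw [integral_prod]
  · have h1 : ∀ n : ℕ, ∫ x, pg g (n, x) ∂(Measure.infinitePi fun _ : ℕ => ν) =
        (∫ x, g x ∂ν) ^ n := fun n => integral_pg_fix hg n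
    simp_rw [h1]
    rw [integral_poissonMeasure]
    set c := ∫ x, g x ∂ν
    calc ∑' n : ℕ, (Real.exp (-lam) * (lam : ℝ) ^ n / (n.factorial : ℝ)) • c ^ n
        = ∑' n : ℕ, (Real.exp (-lam) : ℂ) * ((lam * c) ^ n / (n.factorial : ℂ)) := by
          congr with n
          rw [Complex.real_smul]
          push_cast
          rw [mul_pow]
          ring
      _ = (Real.exp (-lam) : ℂ) * ∑' n : ℕ, ((lam * c) ^ n / (n.factorial : ℂ)) := tsum_mul_left
      _ = (Real.exp (-lam) : ℂ) * Complex.exp (lam * c) := by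
          rw [(NormedSpace.expSeries_div_hasSum_exp ((lam : ℂ) * c)).tsum_eq,
            Complex.exp_eq_exp_ℂ]
      _ = Complex.exp (lam * (c - 1)) := by
          rw [Complex.ofReal_exp, ← Complex.exp_add]
          congr 1
          push_cast
          ring
  · exact Integrable.of_bound (measurable_pg hg).aestronglyMeasurable 1
      (Eventually.of_forall (norm_pg_le hb))

end gen

/-- The sample space: a number and a sequence of coloured points for every cell. -/
abbrev Om : Type := (ℤ × ℤ) → ℕ × (ℕ → Pt)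

/-- The law on the sample space. -/
noncomputable def PP (lam : ℝ≥0) : Measure Om := Measure.infinitePi fun k => cm lam (nu k)

instance ppProb (lam : ℝ≥0) : IsProbabilityMeasure (PP lam) := by unfold PP; infer_instance

theorem integral_cells (lam : ℝ≥0) {g : Pt → ℂ} (hg : Measurable g) (hb : ∀ x, ‖g x‖ ≤ 1)
    (K : Finset (ℤ × ℤ)) :
    ∫ ω, ∏ k ∈ K, pg g (ω k) ∂(PP lam) =
      Complex.exp (lam * ∑ k ∈ K, (∫ x, g x ∂(nu k) - 1)) := by
  have h1 : iIndepFun (fun (k : ℤ × ℤ) (ω : Om) => ω k) (PP lam) :=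
    iIndepFun_infinitePi (X := fun _ x => x) (fun _ => measurable_id)
  have h2 := h1.precomp (g := fun i : K => (i : ℤ × ℤ)) Subtype.val_injective
  have h3 := h2.integral_fun_prod_comp (f := fun _ => pg g)
    (fun i => (measurable_pi_apply _).aemeasurable)
    (fun i => (measurable_pg hg).aestronglyMeasurable)
  have h4 : ∀ ω : Om, ∏ k ∈ K, pg g (ω k) = ∏ i : K, pg g (ω i) := fun ω =>
    (Finset.prod_coe_sort K fun k => pg g (ω k)).symm
  simp_rw [h4]
  refine h3.trans ?_
  have h5 : ∀ i : K, ∫ ω : Om, pg g (ω i) ∂(PP lam) =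
      Complex.exp (lam * (∫ x, g x ∂(nu i) - 1)) := by
    intro i
    rw [← integral_pg lam hg hb]
    exact mp_integral (measurePreserving_eval_infinitePi (fun k : ℤ × ℤ => cm lam (nu k))
      (i : ℤ × ℤ)) (measurable_pg hg)
  simp_rw [h5]
  rw [Finset.prod_coe_sort K fun k => Complex.exp (lam * (∫ x, g x ∂(nu k) - 1)),
    ← Complex.exp_sum, Finset.mul_sum]

end Vale.Agent.P148.R2.H900
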