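import Vale.Agent.P148.R2.H900.PP1

/-!
# P148, row PP: existence of the coloured Poisson process. Part 2: laws of the counts
-/

open MeasureTheory Set Metric Topology Filter ProbabilityTheory
open scoped ENNReal NNReal

namespace Vale.Agent.P148.R2.H900

open _root_.P148

/-- Number of points of one cell configuration in `A`. -/
noncomputable def cnt (A : Set Pt) (c : ℕ × (ℕ → Pt)) : ℕ :=
  ∑ j ∈ Finset.range c.1, A.indicator (fun _ => 1) (c.2 j)

/-- Number of points in `A` of the cells of `K`. -/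
noncomputable def M (A : Set Pt) (K : Finset (ℤ × ℤ)) (ω : Om) : ℕ := ∑ k ∈ K, cnt A (ω k)

theorem measurable_cnt {A : Set Pt} (hA : MeasurableSet A) : Measurable (cnt A) := by
  refine measurable_from_prod_countable_right fun n => ?_
  unfold cnt
  simp only
  refine Finset.measurable_sum _ fun j _ => ?_
  exact (measurable_const.indicator hA).comp (measurable_pi_apply j)

theorem measurable_M {A : Set Pt} (hA : MeasurableSet A) (K : Finset (ℤ × ℤ)) :
    Measurable (M A K) := by
  unfold M
  exact Finset.measurable_sum _ fun k _ => (measurable_cnt hA).comp (measurable_pi_apply k)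

/-- The test function. -/
noncomputable def tg {n : ℕ} (t : Fin n → ℝ) (A : Fin n → Set Pt) (x : Pt) : ℂ :=
  Complex.exp ((∑ i, t i * (A i).indicator (fun _ => (1 : ℝ)) x : ℝ) * Complex.I)

theorem measurable_tg {n : ℕ} (t : Fin n → ℝ) {A : Fin n → Set Pt}
    (hA : ∀ i, MeasurableSet (A i)) : Measurable (tg t A) := by
  unfold tg
  refine Complex.measurable_exp.comp ((Complex.measurable_ofReal.comp ?_).mul_const _)
  exact Finset.measurable_sum _ fun i _ => (measurable_const.indicator (hA i)).const_mul _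

theorem norm_tg_le {n : ℕ} (t : Fin n → ℝ) (A : Fin n → Set Pt) (x : Pt) : ‖tg t A x‖ ≤ 1 := by
  unfold tg
  rw [Complex.norm_exp_ofReal_mul_I]

theorem pg_tg {n : ℕ} (t : Fin n → ℝ) (A : Fin n → Set Pt) (c : ℕ × (ℕ → Pt)) :
    pg (tg t A) c = Complex.exp ((∑ i, t i * (cnt (A i) c : ℝ) : ℝ) * Complex.I) := by
  unfold pg tg cnt
  rw [← Complex.exp_sum]
  congr 1
  rw [← Finset.sum_mul]
  congr 1
  push_cast
  rw [Finset.sum_comm]
  refine Finset.sum_congr rfl fun i _ => ?_
  rw [Finset.mul_sum]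
  refine Finset.sum_congr rfl fun j _ => ?_
  by_cases h : c.2 j ∈ A i
  · simp [h]
  · simp [h]

theorem prod_pg_tg {n : ℕ} (t : Fin n → ℝ) (A : Fin n → Set Pt) (K : Finset (ℤ × ℤ)) (ω : Om) :
    ∏ k ∈ K, pg (tg t A) (ω k) =
      Complex.exp ((∑ i, t i * (M (A i) K ω : ℝ) : ℝ) * Complex.I) := by
  simp_rw [pg_tg]
  rw [← Complex.exp_sum]
  congr 1
  rw [← Finset.sum_mul]
  congr 1
  unfold M
  push_cast
  rw [Finset.sum_comm]
  refine Finset.sum_congr rfl fun i _ => ?_
  rw [Finset.mul_sum]

theorem tg_eq {n : ℕ} (t : Fin n → ℝ) {A : Fin n → Set Pt}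
    (hd : Pairwise fun i j => Disjoint (A i) (A j)) (x : Pt) :
    tg t A x = 1 + ∑ i, (Complex.exp (t i * Complex.I) - 1) *
      (((A i).indicator (fun _ => (1 : ℝ)) x : ℝ) : ℂ) := by
  unfold tg
  by_cases h : ∃ i, x ∈ A i
  · obtain ⟨i, hi⟩ := h
    have h1 : ∀ j, j ≠ i → x ∉ A j := fun j hj hx => (disjoint_left.1 (hd hj) hx) hi
    rw [Finset.sum_eq_single i (fun j _ hj => by simp [h1 j hj]) (by simp),
      Finset.sum_eq_single i (fun j _ hj => by simp [h1 j hj]) (by simp)]
    simp [hi]
  · push Not at h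
    simp [h]

theorem integral_tg {n : ℕ} (t : Fin n → ℝ) {A : Fin n → Set Pt}
    (hA : ∀ i, MeasurableSet (A i)) (hd : Pairwise fun i j => Disjoint (A i) (A j))
    (ν : Measure Pt) [IsProbabilityMeasure ν] :
    ∫ x, tg t A x ∂ν - 1 = ∑ i, (Complex.exp (t i * Complex.I) - 1) * (ν.real (A i) : ℂ) := by
  have hi : ∀ i, Integrable (fun x => ((((A i).indicator (fun _ => (1 : ℝ)) x : ℝ)) : ℂ)) ν :=
    fun i => ((integrable_const (1 : ℝ)).indicator (hA i)).ofReal
  simp_rw [tg_eq t hd]
  rw [integral_add (integrable_const _) (integrable_finsetSum _ fun i _ => (hi i).const_mul _),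
    integral_finsetSum _ fun i _ => (hi i).const_mul _]
  simp only [integral_const, probReal_univ, one_smul, add_sub_cancel_left]
  refine Finset.sum_congr rfl fun i _ => ?_
  rw [integral_const_mul, integral_complex_ofReal, integral_indicator_const _ (hA i)]
  simp

/-- `A` lies over the cells of `K`. -/
def Over (A : Set Pt) (K : Finset (ℤ × ℤ)) : Prop := A ⊆ ⋃ k ∈ K, cellQ k ×ˢ univ

theorem cellQ_disjoint {k l : ℤ × ℤ} (h : k ≠ l) : Disjoint (cellQ k) (cellQ l) := by
  rw [disjoint_left]
  rintro z ⟨h1, h2⟩ ⟨h3, h4⟩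
  exact h (Prod.ext (h1.symm.trans h3) (h2.symm.trans h4))

theorem nu_apply (k : ℤ × ℤ) (A : Set Pt) (hA : MeasurableSet A) :
    nu k A = ((volume : Measure ℂ).prod fair) (A ∩ cellQ k ×ˢ univ) := by
  unfold nu
  have h : (volume.restrict (cellQ k)).prod fair =
      ((volume : Measure ℂ).prod fair).restrict (cellQ k ×ˢ univ) := by
    conv_lhs => rw [← Measure.restrict_univ (μ := fair)]
    rw [Measure.prod_restrict]
  rw [h, Measure.restrict_apply hA]

theorem sum_nu {A : Set Pt} (hA : MeasurableSet A) {K : Finset (ℤ × ℤ)} (hK : Over A K) :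
    ∑ k ∈ K, nu k A = ((volume : Measure ℂ).prod fair) A := by
  simp_rw [nu_apply _ A hA]
  rw [← measure_biUnion_finset]
  · congr 1
    rw [← inter_iUnion₂]
    exact inter_eq_left.2 hK
  · intro k _ l _ hkl
    refine Disjoint.mono inter_subset_right inter_subset_right ?_
    rw [Set.disjoint_prod]
    exact Or.inl (cellQ_disjoint hkl)
  · intro k _
    exact hA.inter ((measurableSet_cellQ k).prod MeasurableSet.univ)

theorem sum_nu_real {A : Set Pt} (hA : MeasurableSet A) {K : Finset (ℤ × ℤ)} (hK : Over A K)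
    (lam : ℝ≥0) : (lam : ℝ) * ∑ k ∈ K, (nu k).real A = ((inten lam A).toNNReal : ℝ) := by
  have h1 : ∑ k ∈ K, (nu k).real A = (((volume : Measure ℂ).prod fair) A).toReal := by
    rw [← sum_nu hA hK, ENNReal.toReal_sum fun k _ => measure_ne_top _ _]
    rfl
  rw [h1, inten, Measure.smul_apply, ENNReal.smul_def, smul_eq_mul, ENNReal.toNNReal_mul]
  simp [ENNReal.coe_toNNReal_eq_toReal]

theorem integral_counts (lam : ℝ≥0) {n : ℕ} (t : Fin n → ℝ) {A : Fin n → Set Pt}
    (hA : ∀ i, MeasurableSet (A i)) (hd : Pairwise fun i j => Disjoint (A i) (A j))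
    {K : Finset (ℤ × ℤ)} (hK : ∀ i, Over (A i) K) :
    ∫ ω, Complex.exp ((∑ i, t i * (M (A i) K ω : ℝ) : ℝ) * Complex.I) ∂(PP lam) =
      ∏ i, Complex.exp (((inten lam (A i)).toNNReal : ℝ) * (Complex.exp (t i * Complex.I) - 1)) := by
  simp_rw [← prod_pg_tg]
  rw [integral_cells lam (measurable_tg t hA) (norm_tg_le t A) K, ← Complex.exp_sum]
  congr 1
  simp_rw [integral_tg t hA hd]
  rw [Finset.sum_comm, Finset.mul_sum]
  refine Finset.sum_congr rfl fun i _ => ?_
  rw [← sum_nu_real (hA i) (hK i) lam, ← Finset.mul_sum]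
  push_cast
  ring

theorem law_M (lam : ℝ≥0) {A : Set Pt} (hA : MeasurableSet A) {K : Finset (ℤ × ℤ)}
    (hK : Over A K) : (PP lam).map (M A K) = poissonMeasure (inten lam A).toNNReal := by
  apply (MeasurableEmbedding.natCast (α := ℝ)).map_injective
  have : IsProbabilityMeasure ((PP lam).map (M A K)) :=
    Measure.isProbabilityMeasure_map (measurable_M hA K).aemeasurable
  have : IsProbabilityMeasure (((PP lam).map (M A K)).map (Nat.cast : ℕ → ℝ)) :=
    Measure.isProbabilityMeasure_map .of_discrete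
  apply Measure.ext_of_charFun
  ext t
  rw [charFun_map_cast_poissonMeasure, charFun_apply, integral_map .of_discrete (by fun_prop),
    integral_map (measurable_M hA K).aemeasurable .of_discrete]
  have h := integral_counts lam (n := 1) (fun _ => t) (A := fun _ => A) (fun _ => hA)
    (fun i j hij => (hij (Subsingleton.elim i j)).elim) (K := K) (fun _ => hK)
  simp only [Finset.univ_unique, Finset.sum_singleton, Finset.prod_singleton] at h
  simp only [Real.inner_apply]
  simpa [mul_comm] using h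

theorem indep_M (lam : ℝ≥0) {n : ℕ} {A : Fin n → Set Pt}
    (hA : ∀ i, MeasurableSet (A i)) (hd : Pairwise fun i j => Disjoint (A i) (A j))
    {K : Finset (ℤ × ℤ)} (hK : ∀ i, Over (A i) K) :
    iIndepFun (fun i ω => M (A i) K ω) (PP lam) := by
  have h1 : iIndepFun (fun i (ω : Om) => (M (A i) K ω : ℝ)) (PP lam) := by
    have hm : ∀ i, Measurable fun ω : Om => (M (A i) K ω : ℝ) := fun i =>
      measurable_from_top.comp (measurable_M (hA i) K)
    rw [iIndepFun_iff_charFun_pi fun i => (hm i).aemeasurable]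
    intro t
    have h2 : ∀ i, charFun ((PP lam).map fun ω : Om => (M (A i) K ω : ℝ)) (t i) =
        Complex.exp (((inten lam (A i)).toNNReal : ℝ) *
          (Complex.exp (t i * Complex.I) - 1)) := by
      intro i
      have : (PP lam).map (fun ω : Om => (M (A i) K ω : ℝ)) =
          ((PP lam).map (M (A i) K)).map (Nat.cast : ℕ → ℝ) := by
        rw [Measure.map_map measurable_from_top (measurable_M (hA i) K)]
        rfl
      rw [this, law_M lam (hA i) (hK i), charFun_map_cast_poissonMeasure]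
    simp_rw [h2]
    rw [← integral_counts lam (fun i => t i) hA hd hK, charFun_apply, integral_map]
    · congr with ω
    · exact Measurable.aemeasurable (by fun_prop)
    all_goals fun_prop
  have h3 := h1.comp (fun _ x => ⌊x⌋₊) fun _ => Nat.measurable_floor
  have h4 : (fun (i : Fin n) => (fun x : ℝ => ⌊x⌋₊) ∘ fun (ω : Om) => (M (A i) K ω : ℝ)) =
      fun i ω => M (A i) K ω := by
    funext i ω
    simp
  rwa [h4] at h3

end Vale.Agent.P148.R2.H900
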